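import Vale.Agent.P202.H834.Loc

/-!
# The localization inequality for multiplicities of modules
-/

namespace Vale.Agent.P202.H834

open Filter Topology IsLocalRing TensorProduct Vale.Agent.P202

universe u v w

section quot

variable {A : Type u} [CommRing A] [IsLocalRing A] [IsNoetherianRing A]

omit [IsLocalRing A] [IsNoetherianRing A] in
/-- the prime of `A/𝔮` given by `P ⊇ 𝔮`. -/
theorem isPrime_map_mk (P q : Ideal A) [P.IsPrime] (hqP : q ≤ P) :
    (P.map (Ideal.Quotient.mk q)).IsPrime := by
  refine Ideal.map_isPrime_of_surjective Ideal.Quotient.mk_surjective ?_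
  rwa [Ideal.mk_ker]

omit [IsLocalRing A] [IsNoetherianRing A] in
theorem comap_map_mk (P q : Ideal A) (hqP : q ≤ P) :
    (P.map (Ideal.Quotient.mk q)).comap (Ideal.Quotient.mk q) = P := by
  rw [Ideal.comap_map_quotientMk]
  exact sup_eq_right.mpr hqP

/-- `(A/𝔮)_{P/𝔮} ≅ A_P/𝔮A_P`. -/
theorem exists_equiv_loc (P q : Ideal A) [P.IsPrime] (hqP : q ≤ P)
    [(P.map (Ideal.Quotient.mk q)).IsPrime] :
    Nonempty (Localization.AtPrime (P.map (Ideal.Quotient.mk q)) ≃+*
      (Localization.AtPrime P ⧸ q.map (algebraMap A (Localization.AtPrime P)))) := by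
  have h1 : Algebra.algebraMapSubmonoid (A ⧸ q) P.primeCompl =
      (P.map (Ideal.Quotient.mk q)).primeCompl := by
    ext x
    obtain ⟨x, rfl⟩ := Ideal.Quotient.mk_surjective x
    have h2 : Ideal.Quotient.mk q x ∈ (P.map (Ideal.Quotient.mk q)).primeCompl ↔ x ∉ P := by
      have h3 : Ideal.Quotient.mk q x ∈ P.map (Ideal.Quotient.mk q) ↔ x ∈ P := by
        rw [← Ideal.mem_comap, comap_map_mk P q hqP]
      exact not_congr h3
    rw [h2]
    constructor
    · rintro ⟨y, hy, hyx⟩ hx
      have hyx' : Ideal.Quotient.mk q y = Ideal.Quotient.mk q x := hyx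
      rw [Ideal.Quotient.eq] at hyx'
      have : y ∈ P := by
        have h4 := P.add_mem (hqP hyx') hx
        rwa [sub_add_cancel] at h4
      exact hy this
    · intro hx
      exact ⟨x, hx, rfl⟩
  have h2 : IsLocalization (Algebra.algebraMapSubmonoid (A ⧸ q) P.primeCompl)
      (Localization.AtPrime P ⧸ q.map (algebraMap A (Localization.AtPrime P))) := inferInstance
  rw [h1] at h2
  exact ⟨(IsLocalization.algEquiv (P.map (Ideal.Quotient.mk q)).primeCompl
    (Localization.AtPrime (P.map (Ideal.Quotient.mk q)))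
    (Localization.AtPrime P ⧸ q.map (algebraMap A (Localization.AtPrime P)))).toRingEquiv⟩

/-- `M` and `M_P` have multiplicities `b ≥ a` in the normalisations `h + r` and `h`. -/
def LocLim (A : Type u) [CommRing A] [IsLocalRing A] (P : Ideal A) [P.IsPrime] (h r : ℕ)
    (M : Type w) [AddCommGroup M] [Module A M] : Prop :=
  ∃ a b : ℕ, Tendsto (gs (Localization.AtPrime P) (Localization.AtPrime P ⊗[A] M) h) atTop
      (𝓝 (a : ℝ)) ∧
    Tendsto (gs A M (h + r)) atTop (𝓝 (b : ℝ)) ∧ a ≤ b

theorem LocLim.exact {P : Ideal A} [P.IsPrime] {h r : ℕ} {M₁ M₂ M₃ : Type w} [AddCommGroup M₁]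
    [Module A M₁]
    [Module.Finite A M₁] [AddCommGroup M₂] [Module A M₂] [Module.Finite A M₂]
    [AddCommGroup M₃] [Module A M₃] [Module.Finite A M₃]
    (f : M₁ →ₗ[A] M₂) (g : M₂ →ₗ[A] M₃) (hf : Function.Injective f)
    (hg : Function.Surjective g) (hfg : Function.Exact f g) (h₁ : LocLim A P h r M₁)
    (h₃ : LocLim A P h r M₃) : LocLim A P h r M₂ := by
  obtain ⟨a, b, ha, hb, hab⟩ := h₁
  obtain ⟨a', b', ha', hb', hab'⟩ := h₃
  have : Module.Flat A (Localization.AtPrime P) := IsLocalization.flat _ P.primeCompl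
  have hf' : Function.Injective (f.baseChange (Localization.AtPrime P)) :=
    Module.Flat.lTensor_preserves_injective_linearMap (M := Localization.AtPrime P) f hf
  have hg' : Function.Surjective (g.baseChange (Localization.AtPrime P)) :=
    LinearMap.lTensor_surjective _ hg
  have hfg' : Function.Exact (f.baseChange (Localization.AtPrime P))
    (g.baseChange (Localization.AtPrime P)) := lTensor_exact _ hfg hg
  refine ⟨a + a', b + b', ?_, ?_, by omega⟩
  · push_cast
    exact gs_exact (f.baseChange _) (g.baseChange _) hf' hg' hfg' ha ha'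
  · push_cast
    exact gs_exact f g hf hg hfg hb hb'

theorem LocLim.prime {P : Ideal A} [P.IsPrime] {h r : ℕ} (hr : ringKrullDim (A ⧸ P) = r)
    (q : Ideal A) [q.IsPrime] (hm : ringKrullDim (A ⧸ q) ≤ (h + r : ℕ)) {M : Type w}
    [AddCommGroup M] [Module A M] (e : M ≃ₗ[A] (A ⧸ q)) : LocLim A P h r M := by
  have hq : q ≤ maximalIdeal A := IsLocalRing.le_maximalIdeal (Ideal.IsPrime.ne_top ‹_›)
  have l1 := tc_loc_quot q hq
  obtain ⟨d', hd'⟩ := exists_dim (A ⧸ q)
  obtain ⟨e', he'⟩ := exists_mult_all hd'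
  have hd'le : d' ≤ h + r := by
    rw [hd'] at hm
    exact_mod_cast hm
  obtain ⟨b, hb⟩ : ∃ b : ℕ, Tendsto (hsSeq (A ⧸ q) (h + r)) atTop (𝓝 (b : ℝ)) := by
    rcases hd'le.lt_or_eq with hlt | rfl
    · exact ⟨0, by simpa using hs_tendsto_zero hd' hlt⟩
    · exact ⟨e', he'⟩
  let e2 : Localization.AtPrime P ⊗[A] M ≃ₗ[Localization.AtPrime P]
      (Localization.AtPrime P ⧸ q.map (algebraMap A (Localization.AtPrime P))) :=
    (e.baseChange A (Localization.AtPrime P) M (A ⧸ q)).trans
      (Algebra.TensorProduct.quotIdealMapEquivTensorQuot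
        (Localization.AtPrime P) q).toLinearEquiv.symm
  unfold LocLim
  rw [gs_quot q hq e]
  by_cases hqP : q ≤ P
  · have hpr := isPrime_map_mk P q hqP
    obtain ⟨e3⟩ := exists_equiv_loc P q hqP
    have hle : q.map (algebraMap A (Localization.AtPrime P)) ≤
        maximalIdeal (Localization.AtPrime P) := by
      rw [← Localization.AtPrime.map_eq_maximalIdeal]
      exact Ideal.map_mono hqP
    have l2 := tc_loc_quot _ hle
    rw [gs_quot _ hle e2, hsSeq_ringEquiv e3]
    obtain ⟨d'', hd''⟩ := exists_dim (Localization.AtPrime (P.map (Ideal.Quotient.mk q)))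
    have hr' : ringKrullDim ((A ⧸ q) ⧸ P.map (Ideal.Quotient.mk q)) = r := by
      rw [← hr]
      exact ringKrullDim_eq_of_ringEquiv (DoubleQuot.quotQuotEquivQuotOfLE hqP)
    have hsum : d'' + r ≤ d' := by
      have h1 := height_add_coheight_le
        (⟨P.map (Ideal.Quotient.mk q), hpr⟩ : PrimeSpectrum (A ⧸ q)) hd'
      have h2 := dim_quot_eq_coheight
        (⟨P.map (Ideal.Quotient.mk q), hpr⟩ : PrimeSpectrum (A ⧸ q))
      rw [hr'] at h2
      have h3 : Order.coheight (⟨P.map (Ideal.Quotient.mk q), hpr⟩ : PrimeSpectrum (A ⧸ q)) =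
          (r : ℕ∞) := by exact_mod_cast h2.symm
      have h4 : (P.map (Ideal.Quotient.mk q)).height = d'' := by
        have := IsLocalization.AtPrime.ringKrullDim_eq_height (P.map (Ideal.Quotient.mk q))
          (Localization.AtPrime (P.map (Ideal.Quotient.mk q)))
        rw [hd''] at this
        exact_mod_cast this.symm
      rw [h3] at h1
      change (P.map (Ideal.Quotient.mk q)).height + _ ≤ _ at h1
      rw [h4] at h1
      exact_mod_cast h1
    have hd2 : d'' ≤ h := by omega
    rcases hd2.lt_or_eq with hlt | rfl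
    · exact ⟨0, b, by simpa using hs_tendsto_zero hd'' hlt, hb, Nat.zero_le _⟩
    · obtain ⟨a, ha⟩ := exists_mult_all hd''
      have hdd : ringKrullDim (A ⧸ q) = (d'' + r : ℕ) := by
        rw [hd']
        congr 1
        have : d' = d'' + r := by omega
        exact_mod_cast this
      exact ⟨a, b, ha, hb, loc_all r d'' (P.map (Ideal.Quotient.mk q)) hr' hd'' hdd ha hb⟩
  · have htop : q.map (algebraMap A (Localization.AtPrime P)) = ⊤ := by
      obtain ⟨x, hxq, hxP⟩ := SetLike.not_le_iff_exists.1 hqP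
      refine Ideal.eq_top_of_isUnit_mem _ (Ideal.mem_map_of_mem _ hxq) ?_
      exact IsLocalization.map_units (Localization.AtPrime P) (⟨x, hxP⟩ : P.primeCompl)
    have hsub : Subsingleton (Localization.AtPrime P ⧸
        q.map (algebraMap A (Localization.AtPrime P))) := by
      rw [htop]
      exact Ideal.Quotient.subsingleton_iff.2 rfl
    rw [gs_congr e2, gs_subsingleton]
    exact ⟨0, b, by simp, hb, Nat.zero_le _⟩

theorem locLim_all {P : Ideal A} [P.IsPrime] {h r : ℕ} (hr : ringKrullDim (A ⧸ P) = r)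
    (M : Type w) [AddCommGroup M] [Module A M] [Module.Finite A M]
    (hm : Module.supportDim A M ≤ (h + r : ℕ)) : LocLim A P h r M := by
  revert hm
  refine IsNoetherianRing.induction_on_isQuotientEquivQuotientPrime A
    (M := M) inferInstance
    (motive := fun M _ _ _ => Module.supportDim A M ≤ (h + r : ℕ) → LocLim A P h r M) ?_ ?_ ?_
  · intro M _ _ _ hM _
    refine ⟨0, 0, ?_, ?_, le_rfl⟩
    · have : Subsingleton (Localization.AtPrime P ⊗[A] M) := inferInstance
      rw [gs_subsingleton]
      simp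
    · rw [gs_subsingleton]
      simp
  · intro M _ _ _ q e hm
    have hqp : q.1.IsPrime := q.2
    refine LocLim.prime hr q.1 ?_ e
    rw [← Module.supportDim_quotient_eq_ringKrullDim, ← Module.supportDim_eq_of_equiv e]
    exact hm
  · intro M₁ _ _ _ M₂ _ _ _ M₃ _ _ _ f g hf hg hfg h₁ h₃ hm
    exact LocLim.exact f g hf hg hfg (h₁ ((Module.supportDim_le_of_injective f hf).trans hm))
      (h₃ ((Module.supportDim_le_of_surjective g hg).trans hm))

/-- the dimension of a nonzero finitely generated module is a natural number. -/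
theorem exists_supportDim (M : Type w) [AddCommGroup M] [Module A M] [Module.Finite A M]
    [Nontrivial M] : ∃ m : ℕ, Module.supportDim A M = m := by
  have h1 : Module.annihilator A M ≤ maximalIdeal A := by
    refine IsLocalRing.le_maximalIdeal fun h => ?_
    have h2 : (1 : A) ∈ Module.annihilator A M := by
      rw [h]
      exact Submodule.mem_top
    obtain ⟨x, hx⟩ := exists_ne (0 : M)
    exact hx (by simpa using Module.mem_annihilator.1 h2 x)
  have l1 := tc_loc_quot _ h1
  rw [Module.supportDim_eq_ringKrullDim_quotient_annihilator]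
  exact exists_dim _

/-- **The localization inequality for modules.** -/
theorem loc_module (P : Ideal A) [P.IsPrime] (M : Type w) [AddCommGroup M] [Module A M]
    [Module.Finite A M] [Nontrivial M]
    (hdim : Module.supportDim (Localization.AtPrime P) (LocalizedModule P.primeCompl M) +
      ringKrullDim (A ⧸ P) = Module.supportDim A M) :
    ∃ h m a b : ℕ, HasMult (Localization.AtPrime P) (LocalizedModule P.primeCompl M) h a ∧
      HasMult A M m b ∧ a ≤ b := by
  obtain ⟨m, hm⟩ := exists_supportDim (A := A) M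
  have l1 := tc_loc_quot P (IsLocalRing.le_maximalIdeal (Ideal.IsPrime.ne_top ‹_›))
  obtain ⟨r, hr⟩ := exists_dim (A ⧸ P)
  have e1 := LocalizedModule.equivTensorProduct P.primeCompl M
  have hfin : Module.Finite (Localization.AtPrime P) (LocalizedModule P.primeCompl M) :=
    Module.Finite.equiv e1.symm
  have hnt : Nontrivial (LocalizedModule P.primeCompl M) := by
    by_contra hcon
    rw [not_nontrivial_iff_subsingleton] at hcon
    rw [Module.supportDim_eq_bot_of_subsingleton, WithBot.bot_add, hm] at hdim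
    exact absurd hdim (by simp)
  obtain ⟨h, hh⟩ := exists_supportDim (A := Localization.AtPrime P)
    (LocalizedModule P.primeCompl M)
  have hhr : h + r = m := by
    rw [hh, hr, hm] at hdim
    exact_mod_cast hdim
  subst hhr
  obtain ⟨a, b, ha, hb, hab⟩ := locLim_all (P := P) hr M hm.le
  rw [← gs_congr e1] at ha
  exact ⟨h, h + r, a, b, ⟨hh, ha⟩, ⟨hm, hb⟩, hab⟩

/-- **The localization inequality for rings.** -/
theorem loc_ring (P : Ideal A) [P.IsPrime]
    (hdim : (P.height : WithBot ℕ∞) + ringKrullDim (A ⧸ P) = ringKrullDim A) :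
    ∃ h d a b : ℕ, HasRingMult (Localization.AtPrime P) h a ∧ HasRingMult A d b ∧ a ≤ b := by
  have l1 := tc_loc_quot P (IsLocalRing.le_maximalIdeal (Ideal.IsPrime.ne_top ‹_›))
  obtain ⟨r, hr⟩ := exists_dim (A ⧸ P)
  obtain ⟨h, hh⟩ := exists_dim (Localization.AtPrime P)
  have hPh : P.height = h := by
    have := IsLocalization.AtPrime.ringKrullDim_eq_height P (Localization.AtPrime P)
    rw [hh] at this
    exact_mod_cast this.symm
  have hA : ringKrullDim A = (h + r : ℕ) := by
    rw [← hdim, hPh, hr]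
    push_cast
    rfl
  obtain ⟨a, ha⟩ := exists_mult_all hh
  obtain ⟨b, hb⟩ := exists_mult_all hA
  exact ⟨h, h + r, a, b, ⟨hh, ha⟩, ⟨hA, hb⟩, loc_all r h P hr hh hA ha hb⟩

end quot

end Vale.Agent.P202.H834
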