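import Mathlib.RingTheory.KrullDimension.Module
import Mathlib.RingTheory.LocalRing.MaximalIdeal.Basic
import Mathlib.RingTheory.Length
import Mathlib.Topology.Algebra.Order.Field
import Mathlib.Analysis.SpecificLimits.Basic

/-!
# Dimension and multiplicity of a module over a local ring
-/

namespace Vale.Agent.P202.H834

open Filter Topology IsLocalRing

/-- The local ring `R` (with maximal ideal `𝔪`) has Krull dimension `d` and multiplicity
`e(R) = lim d! ℓ_R(R/𝔪^N)/N^d = e`. -/
def HasRingMult (R : Type*) [CommRing R] [IsLocalRing R] (d e : ℕ) : Prop :=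
  ringKrullDim R = d ∧
    Tendsto (fun N : ℕ => (d.factorial : ℝ) *
      ((Module.length R (R ⧸ maximalIdeal R ^ N)).toNat : ℝ) / (N : ℝ) ^ d) atTop (𝓝 (e : ℝ))

/-- The `R`-module `M` over the local ring `R` (with maximal ideal `𝔪`) has Krull dimension
`dim Supp M = d` and multiplicity `e(M) = lim d! ℓ_R(M/𝔪^N M)/N^d = e`. -/
def HasMult (R : Type*) [CommRing R] [IsLocalRing R] (M : Type*) [AddCommGroup M] [Module R M]
    (d e : ℕ) : Prop :=
  Module.supportDim R M = d ∧
    Tendsto (fun N : ℕ => (d.factorial : ℝ) *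
      ((Module.length R (M ⧸ (maximalIdeal R ^ N • (⊤ : Submodule R M)))).toNat : ℝ) /
        (N : ℝ) ^ d) atTop (𝓝 (e : ℝ))

end Vale.Agent.P202.H834
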