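import Vale.Agent.P202.H834.Mod

/-!
# The localization inequality for multiplicities
-/

namespace Vale.Agent.P202.H834

open Filter Topology IsLocalRing TensorProduct Vale.Agent.P202

universe u v w

section height

theorem dim_quot_eq_coheight {A : Type*} [CommRing A] (q : PrimeSpectrum A) :
    ringKrullDim (A ⧸ q.asIdeal) = Order.coheight q := by
  rw [ringKrullDim_quotient]
  have hset : PrimeSpectrum.zeroLocus (q.asIdeal : Set A) = Set.Ici q := by
    ext x
    rw [PrimeSpectrum.mem_zeroLocus, Set.mem_Ici, SetLike.coe_subset_coe]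
    rfl
  rw [hset, ← Order.coheight_eq_krullDim_Ici]

theorem height_add_coheight_le {A : Type*} [CommRing A] [Nontrivial A] (q : PrimeSpectrum A)
    {n : ℕ} (hn : ringKrullDim A = n) :
    q.asIdeal.height + Order.coheight q ≤ (n : ℕ∞) := by
  rw [q.height_eq_orderHeight]
  have h1 : ringKrullDim A = ↑(⨆ (a : PrimeSpectrum A), Order.height a + Order.coheight a) := by
    rw [ringKrullDim, Order.krullDim_eq_iSup_height_add_coheight_of_nonempty]
  rw [hn] at h1
  have h2 : (n : ℕ∞) = ⨆ (a : PrimeSpectrum A), Order.height a + Order.coheight a := by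
    exact_mod_cast h1
  rw [h2]
  exact le_iSup (fun a : PrimeSpectrum A => Order.height a + Order.coheight a) q

theorem hsSeq_ringEquiv {A A' : Type*} [CommRing A] [CommRing A'] [IsLocalRing A]
    [IsLocalRing A'] (e : A ≃+* A') (n : ℕ) : hsSeq A' n = hsSeq A n := by
  funext N
  unfold hsSeq
  rw [Mix.length_quot_pow_of_ringEquiv e]

/-- a non-maximal prime above a given ideal, when the quotient has dimension one. -/
theorem exists_prime_above {C : Type*} [CommRing C] [IsLocalRing C] [IsNoetherianRing C]
    (J : Ideal C) (hJ : J ≤ maximalIdeal C) (h1 : ringKrullDim (C ⧸ J) = 1) :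
    ∃ Q : Ideal C, ∃ _ : Q.IsPrime, J ≤ Q ∧ Q ≠ maximalIdeal C ∧ ringKrullDim (C ⧸ Q) = 1 := by
  have l1 := tc_loc_quot J hJ
  obtain ⟨lq, hlq, hlenq⟩ := (maximalIdeal (C ⧸ J)).exists_ltSeries_length_eq_height
  have hlen : lq.length = 1 := by
    rw [← IsLocalRing.maximalIdeal_height_eq_ringKrullDim] at h1
    have h2 : (maximalIdeal (C ⧸ J)).height = 1 := by exact_mod_cast h1
    rw [h2] at hlenq
    exact_mod_cast hlenq
  have hlen0 : lq.length ≠ 0 := by omega
  set P' : PrimeSpectrum (C ⧸ J) := lq.eraseLast.last with hP'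
  have hP'lt : P' < lq.last := lq.eraseLast_last_rel_last hlen0
  set q : PrimeSpectrum C := PrimeSpectrum.comap (Ideal.Quotient.mk J) P' with hq
  have hqI : J ≤ q.asIdeal := by
    intro x hx
    have : Ideal.Quotient.mk J x = 0 := Ideal.Quotient.eq_zero_iff_mem.mpr hx
    change Ideal.Quotient.mk J x ∈ P'.asIdeal
    rw [this]; exact zero_mem _
  have hmap : q.asIdeal.map (Ideal.Quotient.mk J) = P'.asIdeal := by
    change (P'.asIdeal.comap (Ideal.Quotient.mk J)).map (Ideal.Quotient.mk J) = _
    exact Ideal.map_comap_of_surjective _ Ideal.Quotient.mk_surjective _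
  have hqM : q.asIdeal ≠ maximalIdeal C := by
    intro h
    rw [h, tc_map_max J hJ] at hmap
    apply hP'lt.ne
    rw [hlq]
    ext1
    exact hmap.symm
  refine ⟨q.asIdeal, q.2, hqI, hqM, le_antisymm ?_ ?_⟩
  · rw [← h1]
    exact ringKrullDim_le_of_surjective (Ideal.Quotient.factor hqI)
      (Ideal.Quotient.factor_surjective hqI)
  · rw [dim_quot_eq_coheight]
    have hlt : q < (⟨maximalIdeal C, inferInstance⟩ : PrimeSpectrum C) := by
      refine lt_of_le_of_ne (IsLocalRing.le_maximalIdeal q.2.ne_top) ?_
      intro h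
      exact hqM (congrArg PrimeSpectrum.asIdeal h)
    have h2 : (1 : ℕ∞) ≤ Order.coheight q := by
      have := Order.coheight_add_one_le hlt
      exact le_trans (by simp) this
    exact_mod_cast h2

end height

section one

variable {A : Type u} [CommRing A] [IsLocalRing A] [IsNoetherianRing A]

/-- the localization inequality for primes of coheight one. -/
theorem loc_one (P : Ideal A) [P.IsPrime] {h : ℕ}
    (h1 : ringKrullDim (A ⧸ P) = 1) (hP : ringKrullDim (Localization.AtPrime P) = h)
    (hA : ringKrullDim A = (h + 1 : ℕ)) {eP e : ℕ}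
    (hteP : Tendsto (hsSeq (Localization.AtPrime P) h) atTop (𝓝 (eP : ℝ)))
    (hte : Tendsto (hsSeq A (h + 1)) atTop (𝓝 (e : ℝ))) : eP ≤ e := by
  let C := AdicCompletion (maximalIdeal A) A
  have nC : IsNoetherianRing C := isNoetherianRing_adicCompletion _
  have hPm : P ≤ maximalIdeal A := IsLocalRing.le_maximalIdeal (Ideal.IsPrime.ne_top ‹_›)
  obtain ⟨-, -, hlen, -, hdC, -⟩ := completion_package (R := A) (S := A)
    (R' := C) (S' := C)
    AdicCompletion.maximalIdeal_eq_map AdicCompletion.maximalIdeal_eq_map adicCompletion_dense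
    (AdicCompletion.residueField_map_bijective A) (AdicCompletion.residueField_map_bijective A)
  have hmC : maximalIdeal C = (maximalIdeal A).map (algebraMap A C) :=
    AdicCompletion.maximalIdeal_eq_map
  have hf0 : ringKrullDim (C ⧸ (maximalIdeal A).map (algebraMap A C)) = 0 := by
    rw [← hmC]
    exact ringKrullDim_eq_zero_of_isField
      ((Ideal.Quotient.maximal_ideal_iff_isField_quotient _).1 inferInstance)
  have hdq : ringKrullDim (C ⧸ P.map (algebraMap A C)) = 1 := by
    rw [dim_quot P hPm, hf0, h1, add_zero]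
  obtain ⟨Q, hQp, hPQ, hQm, hQ1⟩ := exists_prime_above _ (map_le_max P hPm) hdq
  have hover : P = Q.under A := by
    have h2 : P ≤ Q.under A := Ideal.map_le_iff_le_comap.1 hPQ
    by_contra hne
    have hlt : (⟨P, ‹_›⟩ : PrimeSpectrum A) < ⟨Q.under A, inferInstance⟩ :=
      lt_of_le_of_ne h2 fun h => hne (congrArg PrimeSpectrum.asIdeal h)
    have h3 := Order.coheight_add_one_le hlt
    have h4 : Order.coheight (⟨P, ‹_›⟩ : PrimeSpectrum A) = 1 := by
      have h5 := dim_quot_eq_coheight (⟨P, ‹_›⟩ : PrimeSpectrum A)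
      rw [h1] at h5
      exact_mod_cast h5.symm
    rw [h4] at h3
    have h6 : Order.coheight (⟨Q.under A, inferInstance⟩ : PrimeSpectrum A) = 0 := by
      have : Order.coheight (⟨Q.under A, inferInstance⟩ : PrimeSpectrum A) + 1 ≤ 0 + 1 := by
        simpa using h3
      exact le_antisymm ((ENat.add_le_add_iff_right ENat.one_ne_top).1 this) bot_le
    rw [Order.coheight_eq_zero] at h6
    have h7 : Q.under A = maximalIdeal A := by
      have h8 : (⟨Q.under A, inferInstance⟩ : PrimeSpectrum A) ≤
          ⟨maximalIdeal A, inferInstance⟩ :=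
        IsLocalRing.le_maximalIdeal (Ideal.IsPrime.ne_top inferInstance)
      exact le_antisymm h8 (h6 h8)
    apply hQm
    refine le_antisymm (IsLocalRing.le_maximalIdeal hQp.ne_top) ?_
    rw [hmC, Ideal.map_le_iff_le_comap]
    exact h7.ge
  have hlies : Q.LiesOver P := ⟨hover⟩
  let a1 : Algebra (Localization.AtPrime P) (Localization.AtPrime Q) :=
    Localization.AtPrime.algebraOfLiesOver P Q
  have hl : Localization.AtPrime.IsLiesOverAlgebra P Q := ⟨rfl⟩
  obtain ⟨d, s, eR, eS, k1, k2, k3, k4, k5⟩ :=
    Vale.Agent.Results.P202.Lech.result (R := Localization.AtPrime P)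
      (S := Localization.AtPrime Q)
  have hd : d = h := by
    rw [hP] at k1
    exact_mod_cast k1.symm
  subst hd
  have hs1 : d ≤ s := by
    have h2 := tc_dim_formula (R := Localization.AtPrime P) (S := Localization.AtPrime Q)
    have l2 := tc_loc_quot ((maximalIdeal (Localization.AtPrime P)).map
      (algebraMap (Localization.AtPrime P) (Localization.AtPrime Q))) (map_le_max _ le_rfl)
    obtain ⟨f, hf⟩ := exists_dim (Localization.AtPrime Q ⧸
      (maximalIdeal (Localization.AtPrime P)).map
        (algebraMap (Localization.AtPrime P) (Localization.AtPrime Q)))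
    rw [k1, k2, hf] at h2
    have : s = d + f := by exact_mod_cast h2
    omega
  have hs2 : s ≤ d := by
    have h2 := height_add_coheight_le (⟨Q, hQp⟩ : PrimeSpectrum C) (hdC.trans hA)
    have h3 : (Order.coheight (⟨Q, hQp⟩ : PrimeSpectrum C)) = 1 := by
      have h5 := dim_quot_eq_coheight (⟨Q, hQp⟩ : PrimeSpectrum C)
      rw [hQ1] at h5
      exact_mod_cast h5.symm
    have h4 : Q.height = s := by
      have := IsLocalization.AtPrime.ringKrullDim_eq_height Q (Localization.AtPrime Q)
      rw [k2] at this
      exact_mod_cast this.symm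
    rw [h3] at h2
    change Q.height + 1 ≤ _ at h2
    rw [h4] at h2
    have : s + 1 ≤ d + 1 := by exact_mod_cast h2
    omega
  have hsd : s = d := le_antisymm hs2 hs1
  subst hsd
  have e1 : eP = eR := by
    have := tendsto_nhds_unique hteP k3
    exact_mod_cast this
  rw [e1]
  refine k5.trans (mult_localization (S := C) Q (s := s) hQ1 k4 ?_)
  have h6 : (fun N : ℕ => ((s + 1).factorial : ℝ) *
      ((ell (maximalIdeal C ^ N)).toNat : ℝ) / (N : ℝ) ^ (s + 1)) = hsSeq A (s + 1) := by
    funext N
    unfold hsSeq ell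
    rw [hlen N]
  rw [h6]
  exact hte

/-- **The localization inequality for multiplicities.** -/
theorem loc_all (r : ℕ) : ∀ (h : ℕ) (P : Ideal A) [P.IsPrime],
    ringKrullDim (A ⧸ P) = r → ringKrullDim (Localization.AtPrime P) = h →
    ringKrullDim A = (h + r : ℕ) → ∀ {eP e : ℕ},
    Tendsto (hsSeq (Localization.AtPrime P) h) atTop (𝓝 (eP : ℝ)) →
    Tendsto (hsSeq A (h + r)) atTop (𝓝 (e : ℝ)) → eP ≤ e := by
  induction r with
  | zero =>
    intro h P _ h1 hP hA eP e hteP hte
    have h2 := dim_quot_eq_coheight (⟨P, ‹_›⟩ : PrimeSpectrum A)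
    rw [h1] at h2
    have h3 : Order.coheight (⟨P, ‹_›⟩ : PrimeSpectrum A) = 0 := by exact_mod_cast h2.symm
    rw [Order.coheight_eq_zero] at h3
    have h7 : P = maximalIdeal A := by
      have h8 : (⟨P, ‹_›⟩ : PrimeSpectrum A) ≤ ⟨maximalIdeal A, inferInstance⟩ :=
        IsLocalRing.le_maximalIdeal (Ideal.IsPrime.ne_top ‹_›)
      exact le_antisymm h8 (h3 h8)
    have hu : P.primeCompl ≤ IsUnit.submonoid A := by
      intro x hx
      have hx' : x ∉ P := hx
      rw [h7, mem_maximalIdeal, mem_nonunits_iff, not_not] at hx'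
      exact hx'
    have e1 := (IsLocalization.atUnits A P.primeCompl (S := Localization.AtPrime P) hu).toRingEquiv
    rw [hsSeq_ringEquiv e1] at hteP
    have := tendsto_nhds_unique hteP hte
    have h9 : eP = e := by exact_mod_cast this
    exact h9.le
  | succ r ih =>
    intro h P _ h1 hP hA eP e hteP hte
    have h2 := dim_quot_eq_coheight (⟨P, ‹_›⟩ : PrimeSpectrum A)
    rw [h1] at h2
    have h3 : Order.coheight (⟨P, ‹_›⟩ : PrimeSpectrum A) = ((r + 1 : ℕ) : ℕ∞) := by
      exact_mod_cast h2.symm
    have hPh : P.height = h := by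
      have := IsLocalization.AtPrime.ringKrullDim_eq_height P (Localization.AtPrime P)
      rw [hP] at this
      exact_mod_cast this.symm
    obtain ⟨y, hy, hyr⟩ : ∃ y : PrimeSpectrum A, (⟨P, ‹_›⟩ : PrimeSpectrum A) < y ∧
        (r : ℕ∞) < Order.coheight y + 1 := by
      have h4 : (r : ℕ∞) < Order.coheight (⟨P, ‹_›⟩ : PrimeSpectrum A) := by
        rw [h3]
        exact_mod_cast Nat.lt_succ_self r
      rw [Order.coheight_eq_iSup_gt_coheight] at h4
      obtain ⟨y, hy⟩ := lt_iSup_iff.1 h4
      obtain ⟨hy1, hy2⟩ := lt_iSup_iff.1 hy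
      exact ⟨y, hy1, hy2⟩
    have hyh : (h : ℕ∞) + 1 ≤ y.asIdeal.height := by
      have := Order.height_add_one_le hy
      rw [← PrimeSpectrum.height_eq_orderHeight, ← PrimeSpectrum.height_eq_orderHeight] at this
      change P.height + 1 ≤ _ at this
      rwa [hPh] at this
    have hsum := height_add_coheight_le y hA
    have hqfin : y.asIdeal.height ≠ ⊤ := by
      intro h
      rw [h, top_add, top_le_iff] at hsum
      exact ENat.natCast_ne_top _ hsum
    have hcofin : Order.coheight y ≠ ⊤ := by
      intro h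
      rw [h, add_top, top_le_iff] at hsum
      exact ENat.natCast_ne_top _ hsum
    obtain ⟨a, ha⟩ := ENat.ne_top_iff_exists.mp hqfin
    obtain ⟨b, hb⟩ := ENat.ne_top_iff_exists.mp hcofin
    rw [← ha] at hsum hyh
    rw [← hb] at hsum hyr
    have e1 : h + 1 ≤ a := by exact_mod_cast hyh
    have e2 : r < b + 1 := by exact_mod_cast hyr
    have e3 : a + b ≤ h + (r + 1) := by exact_mod_cast hsum
    have ea : a = h + 1 := by omega
    have eb : b = r := by omega
    subst ea eb
    have hdy : ringKrullDim (A ⧸ y.asIdeal) = b := by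
      rw [dim_quot_eq_coheight, ← hb]
      rfl
    have hdB : ringKrullDim (Localization.AtPrime y.asIdeal) = (h + 1 : ℕ) := by
      rw [IsLocalization.AtPrime.ringKrullDim_eq_height y.asIdeal, ← ha]
      rfl
    obtain ⟨ey, hey⟩ := exists_mult_all hdB
    have key1 : ey ≤ e := by
      refine ih (h + 1) y.asIdeal hdy hdB ?_ hey ?_
      · rw [hA]
        congr 1
        omega
      · rw [show h + 1 + b = h + (b + 1) by omega]
        exact hte
    refine le_trans ?_ key1
    -- the prime of the localization over `P`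
    have hdisj : Disjoint (y.asIdeal.primeCompl : Set A) (P : Set A) := by
      rw [Set.disjoint_left]
      intro x hx hxP
      exact hx (hy.le hxP)
    obtain ⟨Q, hQ, hQP⟩ : ∃ Q : Ideal (Localization.AtPrime y.asIdeal), Q.IsPrime ∧
        Q.comap (algebraMap A (Localization.AtPrime y.asIdeal)) = P :=
      ⟨P.map (algebraMap A (Localization.AtPrime y.asIdeal)),
        IsLocalization.isPrime_of_isPrime_disjoint y.asIdeal.primeCompl _ P ‹_› hdisj,
        IsLocalization.under_map_of_isPrime_disjoint y.asIdeal.primeCompl _ ‹_› hdisj⟩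
    subst hQP
    have e4 := (IsLocalization.localizationLocalizationAtPrimeIsoLocalization
      y.asIdeal.primeCompl Q).toRingEquiv
    have hQd : ringKrullDim (Localization.AtPrime Q) = h := by
      rw [← hP]
      exact (ringKrullDim_eq_of_ringEquiv e4).symm
    refine loc_one Q ?_ hQd hdB ?_ hey
    · have h5 : Q ≠ maximalIdeal (Localization.AtPrime y.asIdeal) := by
        intro hQm
        apply hy.ne
        ext1
        change Ideal.comap (algebraMap A (Localization.AtPrime y.asIdeal)) Q = y.asIdeal
        rw [hQm]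
        exact IsLocalization.AtPrime.under_maximalIdeal _ y.asIdeal
      have hlt : (⟨Q, hQ⟩ : PrimeSpectrum (Localization.AtPrime y.asIdeal)) <
          ⟨maximalIdeal _, inferInstance⟩ := by
        refine lt_of_le_of_ne (IsLocalRing.le_maximalIdeal hQ.ne_top) ?_
        intro h
        exact h5 (congrArg PrimeSpectrum.asIdeal h)
      have h6 : (1 : ℕ∞) ≤ Order.coheight
          (⟨Q, hQ⟩ : PrimeSpectrum (Localization.AtPrime y.asIdeal)) := by
        have := Order.coheight_add_one_le hlt
        exact le_trans (by simp) this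
      have h7 := height_add_coheight_le
        (⟨Q, hQ⟩ : PrimeSpectrum (Localization.AtPrime y.asIdeal)) hdB
      have h8 : Q.height = h := by
        have := IsLocalization.AtPrime.ringKrullDim_eq_height Q (Localization.AtPrime Q)
        rw [hQd] at this
        exact_mod_cast this.symm
      change Q.height + _ ≤ _ at h7
      rw [h8] at h7
      have h9 : Order.coheight
          (⟨Q, hQ⟩ : PrimeSpectrum (Localization.AtPrime y.asIdeal)) ≤ 1 := by
        have : (h : ℕ∞) + Order.coheight
          (⟨Q, hQ⟩ : PrimeSpectrum (Localization.AtPrime y.asIdeal)) ≤ h + 1 := by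
          exact_mod_cast h7
        exact (ENat.add_le_add_iff_left (ENat.natCast_ne_top h)).1 this
      have h10 := dim_quot_eq_coheight (⟨Q, hQ⟩ : PrimeSpectrum (Localization.AtPrime y.asIdeal))
      rw [le_antisymm h9 h6] at h10
      exact h10
    · rw [hsSeq_ringEquiv e4]
      exact hteP

end one

end Vale.Agent.P202.H834
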