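import Vale.Agent.Results.P202.Lech
import Vale.Agent.P202.H834.Defs
import Mathlib.RingTheory.LocalRing.Module

/-!
# Lech's inequality for modules
-/

namespace Vale.Agent.P202.H834

open Filter Topology IsLocalRing TensorProduct Vale.Agent.P202

universe u v w

section growth

/-- normalised growth function of a module -/
noncomputable def gs (B : Type*) [CommRing B] [IsLocalRing B] (M : Type*) [AddCommGroup M]
    [Module B M] (n N : ℕ) : ℝ :=
  (n.factorial : ℝ) * (tcl B M N : ℝ) / (N : ℝ) ^ n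

theorem tendsto_ratio (k n : ℕ) :
    Tendsto (fun N : ℕ => ((N : ℝ) / ((N + k : ℕ) : ℝ)) ^ n) atTop (𝓝 1) := by
  have h5 : Tendsto (fun N : ℕ => 1 - (k : ℝ) / ((N + k : ℕ) : ℝ)) atTop (𝓝 (1 - 0)) := by
    refine tendsto_const_nhds.sub ?_
    exact (tendsto_add_atTop_iff_nat (f := fun N : ℕ => (k : ℝ) / (N : ℝ)) k).2
      (tendsto_const_div_atTop_nhds_zero_nat (k : ℝ))
  rw [sub_zero] at h5
  have h6 := h5.pow n
  rw [one_pow] at h6
  refine h6.congr' ?_
  filter_upwards [eventually_gt_atTop 0] with N hN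
  have h7 : ((N + k : ℕ) : ℝ) ≠ 0 := by positivity
  congr 1
  push_cast at h7 ⊢
  field_simp
  ring

variable {B : Type*} [CommRing B] [IsLocalRing B] [IsNoetherianRing B]

theorem gs_exact {M₁ M₂ M₃ : Type*} [AddCommGroup M₁] [Module B M₁] [Module.Finite B M₁]
    [AddCommGroup M₂] [Module B M₂] [Module.Finite B M₂]
    [AddCommGroup M₃] [Module B M₃] [Module.Finite B M₃]
    (f : M₁ →ₗ[B] M₂) (g : M₂ →ₗ[B] M₃) (hf : Function.Injective f)
    (hg : Function.Surjective g) (hfg : Function.Exact f g) {n : ℕ} {a b : ℝ}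
    (h₁ : Tendsto (gs B M₁ n) atTop (𝓝 a)) (h₃ : Tendsto (gs B M₃ n) atTop (𝓝 b)) :
    Tendsto (gs B M₂ n) atTop (𝓝 (a + b)) := by
  obtain ⟨k, hk⟩ := tc_super (maximalIdeal B) f g hf hg hfg
  rw [← tendsto_add_atTop_iff_nat k]
  have hlow : Tendsto (fun N : ℕ => gs B M₁ n N * ((N : ℝ) / ((N + k : ℕ) : ℝ)) ^ n +
      gs B M₃ n (N + k)) atTop (𝓝 (a * 1 + b)) :=
    (h₁.mul (tendsto_ratio k n)).add ((tendsto_add_atTop_iff_nat k).2 h₃)
  rw [mul_one] at hlow
  have hup : Tendsto (fun N : ℕ => gs B M₁ n (N + k) + gs B M₃ n (N + k)) atTop (𝓝 (a + b)) :=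
    ((tendsto_add_atTop_iff_nat k).2 h₁).add ((tendsto_add_atTop_iff_nat k).2 h₃)
  refine tendsto_of_tendsto_of_tendsto_of_le_of_le' hlow hup ?_ ?_
  · filter_upwards [eventually_gt_atTop 0] with N hN
    have h4 : tcl B M₁ N + tcl B M₃ (N + k) ≤ tcl B M₂ (N + k) := by
      have h5 : (tcl B M₁ N : ℕ∞) + tcl B M₃ (N + k) ≤ tcl B M₂ (N + k) := by
        rw [tcl_coe, tcl_coe, tcl_coe]
        exact hk N
      exact_mod_cast h5
    have h4' : (tcl B M₁ N : ℝ) + tcl B M₃ (N + k) ≤ tcl B M₂ (N + k) := by exact_mod_cast h4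
    have hN0 : (0 : ℝ) < N := by exact_mod_cast hN
    have hNk : (0 : ℝ) < ((N + k : ℕ) : ℝ) := by positivity
    unfold gs
    have e1 : (n.factorial : ℝ) * (tcl B M₁ N : ℝ) / (N : ℝ) ^ n *
        ((N : ℝ) / ((N + k : ℕ) : ℝ)) ^ n =
        (n.factorial : ℝ) * (tcl B M₁ N : ℝ) / ((N + k : ℕ) : ℝ) ^ n := by
      rw [div_pow]
      field_simp
    rw [e1, ← add_div, ← mul_add]
    gcongr
  · refine Eventually.of_forall fun N => ?_
    have h4 : tcl B M₂ (N + k) ≤ tcl B M₁ (N + k) + tcl B M₃ (N + k) := by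
      have h5 : (tcl B M₂ (N + k) : ℕ∞) ≤ tcl B M₁ (N + k) + tcl B M₃ (N + k) := by
        rw [tcl_coe, tcl_coe, tcl_coe]
        exact tc_sub f g hg hfg
      exact_mod_cast h5
    have h4' : (tcl B M₂ (N + k) : ℝ) ≤ tcl B M₁ (N + k) + tcl B M₃ (N + k) := by
      exact_mod_cast h4
    unfold gs
    rw [← add_div, ← mul_add]
    gcongr

omit [IsNoetherianRing B] in
theorem gs_congr {M M' : Type*} [AddCommGroup M] [Module B M] [AddCommGroup M'] [Module B M']
    (e : M ≃ₗ[B] M') (n : ℕ) : gs B M n = gs B M' n := by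
  funext N
  unfold gs tcl
  rw [tcl_congr B e]

omit [IsNoetherianRing B] in
theorem gs_subsingleton (M : Type*) [AddCommGroup M] [Module B M] [Subsingleton M] (n : ℕ) :
    gs B M n = fun _ => 0 := by
  funext N
  have h1 : tcl B M N = 0 := by
    unfold tcl
    rw [Module.length_eq_zero]
    rfl
  unfold gs
  rw [h1]
  simp

theorem gs_quot (J : Ideal B) (hJ : J ≤ maximalIdeal B) [IsLocalRing (B ⧸ J)] {M : Type*}
    [AddCommGroup M] [Module B M] (e : M ≃ₗ[B] (B ⧸ J)) (n : ℕ) :
    gs B M n = hsSeq (B ⧸ J) n := by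
  rw [gs_congr e]
  funext N
  unfold gs tcl hsSeq
  rw [tcl_quot J hJ]

theorem hs_tendsto_zero {A : Type*} [CommRing A] [IsLocalRing A] [IsNoetherianRing A]
    {d' d : ℕ} (hd' : ringKrullDim A = d') (hlt : d' < d) :
    Tendsto (hsSeq A d) atTop (𝓝 0) := by
  obtain ⟨eP, heP⟩ := exists_mult_all hd'
  have h1 : Tendsto (fun N : ℕ => ((d.factorial : ℝ) / (d'.factorial : ℝ)) *
      (hsSeq A d' N * ((N : ℝ) ^ (d - d'))⁻¹)) atTop
      (𝓝 (((d.factorial : ℝ) / (d'.factorial : ℝ)) * ((eP : ℝ) * 0))) := by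
    refine (heP.mul ?_).const_mul _
    have h2 : Tendsto (fun N : ℕ => (N : ℝ) ^ (d - d')) atTop atTop :=
      (tendsto_pow_atTop (by omega)).comp tendsto_natCast_atTop_atTop
    exact h2.inv_tendsto_atTop
  rw [mul_zero, mul_zero] at h1
  refine h1.congr' ?_
  filter_upwards [eventually_gt_atTop 0] with N hN0
  have hN' : (0 : ℝ) < N := by exact_mod_cast hN0
  unfold hsSeq
  have h3 : (N : ℝ) ^ d = (N : ℝ) ^ d' * (N : ℝ) ^ (d - d') := by
    rw [← pow_add]; congr 1; omega
  have h4 : (d'.factorial : ℝ) ≠ 0 := by exact_mod_cast d'.factorial_ne_zero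
  rw [h3]
  field_simp

end growth

section flat

variable {R : Type u} {S : Type v} [CommRing R] [IsLocalRing R] [IsNoetherianRing R]
  [CommRing S] [IsLocalRing S] [IsNoetherianRing S] [Algebra R S]
  [IsLocalHom (algebraMap R S)]

omit [IsNoetherianRing R] [IsNoetherianRing S] in
theorem map_le_max (P : Ideal R) (hP : P ≤ maximalIdeal R) :
    P.map (algebraMap R S) ≤ maximalIdeal S := by
  rw [Ideal.map_le_iff_le_comap]
  intro a ha
  exact (IsLocalRing.mem_maximalIdeal _).mpr fun h =>
    (IsLocalRing.mem_maximalIdeal _).mp (hP ha) (isUnit_of_map_unit (algebraMap R S) a h)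

omit [IsNoetherianRing R] [IsNoetherianRing S] in
theorem loc_hom_quot (P : Ideal R) (hP : P ≤ maximalIdeal R) [IsLocalRing (R ⧸ P)]
    [IsLocalRing (S ⧸ P.map (algebraMap R S))] :
    IsLocalHom (algebraMap (R ⧸ P) (S ⧸ P.map (algebraMap R S))) := by
  refine ⟨fun a ha => ?_⟩
  obtain ⟨a, rfl⟩ := Ideal.Quotient.mk_surjective a
  by_contra hna
  have h1 : a ∈ maximalIdeal R := by
    rw [mem_maximalIdeal, mem_nonunits_iff]
    intro h
    exact hna (h.map _)
  have h2 : algebraMap R S a ∈ maximalIdeal S := by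
    rw [mem_maximalIdeal, mem_nonunits_iff]
    intro h
    exact (mem_maximalIdeal _).mp h1 (isUnit_of_map_unit (algebraMap R S) a h)
  have h0 : algebraMap (R ⧸ P) (S ⧸ P.map (algebraMap R S)) (Ideal.Quotient.mk P a) =
      Ideal.Quotient.mk _ (algebraMap R S a) := rfl
  rw [h0] at ha
  have h3 : Ideal.Quotient.mk (P.map (algebraMap R S)) (algebraMap R S a) ∈
      maximalIdeal (S ⧸ P.map (algebraMap R S)) := by
    rw [← tc_map_max _ (map_le_max P hP)]
    exact Ideal.mem_map_of_mem _ h2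
  exact (mem_maximalIdeal _).mp h3 ha

theorem dim_quot [Module.Flat R S] (P : Ideal R) (hP : P ≤ maximalIdeal R) :
    ringKrullDim (S ⧸ P.map (algebraMap R S)) = ringKrullDim (R ⧸ P) +
      ringKrullDim (S ⧸ (maximalIdeal R).map (algebraMap R S)) := by
  have l1 := tc_loc_quot P hP
  have l2 := tc_loc_quot (P.map (algebraMap R S)) (map_le_max P hP)
  have l3 := loc_hom_quot (S := S) P hP
  have l4 : Module.Flat (R ⧸ P) (S ⧸ P.map (algebraMap R S)) := flat_quot P
  rw [tc_dim_formula (R := R ⧸ P) (S := S ⧸ P.map (algebraMap R S))]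
  congr 1
  set J := (maximalIdeal R).map (algebraMap R S) with hJ
  have h1 : (maximalIdeal (R ⧸ P)).map (algebraMap (R ⧸ P) (S ⧸ P.map (algebraMap R S))) =
      J.map (Ideal.Quotient.mk (P.map (algebraMap R S))) := by
    rw [← tc_map_max P hP, Ideal.map_map, hJ, Ideal.map_map]
    rfl
  have h2 : (J.map (Ideal.Quotient.mk (P.map (algebraMap R S)))).comap
      (Ideal.Quotient.mk (P.map (algebraMap R S))) = J := by
    rw [Ideal.comap_map_quotientMk]
    exact sup_eq_right.mpr (Ideal.map_mono hP)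
  rw [h1]
  let φ : S →+* ((S ⧸ P.map (algebraMap R S)) ⧸
      J.map (Ideal.Quotient.mk (P.map (algebraMap R S)))) :=
    (Ideal.Quotient.mk _).comp (Ideal.Quotient.mk _)
  have hφ : Function.Surjective φ :=
    Ideal.Quotient.mk_surjective.comp Ideal.Quotient.mk_surjective
  have hker : RingHom.ker φ = J := by
    rw [← RingHom.comap_ker, Ideal.mk_ker, h2]
  exact (ringKrullDim_eq_of_ringEquiv ((Ideal.quotEquivOfEq hker.symm).trans
    (RingHom.quotientKerEquivOfSurjective hφ))).symm

end flat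

section support

variable {R : Type u} {S : Type v} [CommRing R] [CommRing S] [Algebra R S]
  {M : Type w} [AddCommGroup M] [Module R M] [Module.Finite R M]

theorem nontrivial_tensor_field {K K' : Type*} [Field K] [Field K'] [Algebra K K'] {V : Type*}
    [AddCommGroup V] [Module K V] : Nontrivial (K' ⊗[K] V) ↔ Nontrivial V := by
  constructor
  · intro h
    by_contra hV
    rw [not_nontrivial_iff_subsingleton] at hV
    exact not_subsingleton (K' ⊗[K] V) inferInstance
  · intro h
    exact Module.FaithfullyFlat.lTensor_nontrivial K K' V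

/-- the support of a base change is the preimage of the support. -/
theorem mem_support_baseChange (Q : PrimeSpectrum S) :
    Q ∈ Module.support S (S ⊗[R] M) ↔
      PrimeSpectrum.comap (algebraMap R S) Q ∈ Module.support R M := by
  set P : PrimeSpectrum R := PrimeSpectrum.comap (algebraMap R S) Q with hP
  rw [Module.mem_support_iff_nontrivial_residueField_tensorProduct,
    Module.mem_support_iff_nontrivial_residueField_tensorProduct]
  have hPQ : P.asIdeal = Q.asIdeal.comap (algebraMap R S) := by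
    rw [hP]
    rfl
  let a1 : Algebra P.asIdeal.ResidueField Q.asIdeal.ResidueField :=
    (Ideal.ResidueField.map P.asIdeal Q.asIdeal (algebraMap R S) hPQ).toAlgebra
  have a2 : IsScalarTower R P.asIdeal.ResidueField Q.asIdeal.ResidueField := by
    refine IsScalarTower.of_algebraMap_eq fun x => ?_
    have h1 := Ideal.ResidueField.map_algebraMap P.asIdeal Q.asIdeal (algebraMap R S) hPQ x
    rw [← IsScalarTower.algebraMap_apply] at h1
    exact h1.symm
  have e1 : (Q.asIdeal.ResidueField ⊗[S] (S ⊗[R] M)) ≃ₗ[Q.asIdeal.ResidueField]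
      (Q.asIdeal.ResidueField ⊗[R] M) :=
    TensorProduct.AlgebraTensorModule.cancelBaseChange R S _ _ M
  have e2 : (Q.asIdeal.ResidueField ⊗[P.asIdeal.ResidueField] (P.asIdeal.ResidueField ⊗[R] M))
      ≃ₗ[Q.asIdeal.ResidueField] (Q.asIdeal.ResidueField ⊗[R] M) :=
    TensorProduct.AlgebraTensorModule.cancelBaseChange R P.asIdeal.ResidueField _ _ M
  rw [e1.toEquiv.nontrivial_congr, ← e2.toEquiv.nontrivial_congr]
  exact nontrivial_tensor_field

end support

section supportDim

variable {R : Type u} {S : Type v} [CommRing R] [IsLocalRing R] [IsNoetherianRing R]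
  [CommRing S] [IsLocalRing S] [IsNoetherianRing S] [Algebra R S]
  [IsLocalHom (algebraMap R S)] [Module.Flat R S]
  {M : Type w} [AddCommGroup M] [Module R M] [Module.Finite R M]

/-- the dimension of a flat local base change. -/
theorem supportDim_baseChange [Nontrivial M] :
    Module.supportDim S (S ⊗[R] M) = Module.supportDim R M +
      ringKrullDim (S ⧸ (maximalIdeal R).map (algebraMap R S)) := by
  set I := Module.annihilator R M with hI
  have hI1 : I ≤ maximalIdeal R := by
    refine IsLocalRing.le_maximalIdeal fun h => ?_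
    have h2 : (1 : R) ∈ Module.annihilator R M := by
      rw [← hI, h]
      exact Submodule.mem_top
    obtain ⟨x, hx⟩ := exists_ne (0 : M)
    exact hx (by simpa using Module.mem_annihilator.1 h2 x)
  have h1 : Module.support S (S ⊗[R] M) = Module.support S (S ⧸ I.map (algebraMap R S)) := by
    ext Q
    rw [mem_support_baseChange, Module.support_eq_zeroLocus, Module.support_eq_zeroLocus,
      Ideal.annihilator_quotient, PrimeSpectrum.mem_zeroLocus, PrimeSpectrum.mem_zeroLocus,
      SetLike.coe_subset_coe, SetLike.coe_subset_coe, Ideal.map_le_iff_le_comap]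
    rfl
  have h2 : Module.supportDim S (S ⊗[R] M) =
      Module.supportDim S (S ⧸ I.map (algebraMap R S)) := by
    unfold Module.supportDim
    rw [h1]
  rw [h2, Module.supportDim_quotient_eq_ringKrullDim, dim_quot I hI1,
    Module.supportDim_eq_ringKrullDim_quotient_annihilator]

end supportDim

section lech

variable {R : Type u} {S : Type v} [CommRing R] [IsLocalRing R] [IsNoetherianRing R]
  [CommRing S] [IsLocalRing S] [IsNoetherianRing S] [Algebra R S]
  [IsLocalHom (algebraMap R S)] [Module.Flat R S]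

/-- `M` and `S ⊗ M` have multiplicities `a ≤ b` in the normalisations `m` and `s`. -/
def Lim (R : Type u) (S : Type v) [CommRing R] [IsLocalRing R]
    [CommRing S] [IsLocalRing S] [Algebra R S] (m s : ℕ) (M : Type w) [AddCommGroup M]
    [Module R M] : Prop :=
  ∃ a b : ℕ, Tendsto (gs R M m) atTop (𝓝 (a : ℝ)) ∧
    Tendsto (gs S (S ⊗[R] M) s) atTop (𝓝 (b : ℝ)) ∧ a ≤ b

omit [IsLocalHom (algebraMap R S)] in
theorem Lim.exact {m s : ℕ} {M₁ M₂ M₃ : Type w} [AddCommGroup M₁] [Module R M₁]
    [Module.Finite R M₁] [AddCommGroup M₂] [Module R M₂] [Module.Finite R M₂]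
    [AddCommGroup M₃] [Module R M₃] [Module.Finite R M₃]
    (f : M₁ →ₗ[R] M₂) (g : M₂ →ₗ[R] M₃) (hf : Function.Injective f)
    (hg : Function.Surjective g) (hfg : Function.Exact f g) (h₁ : Lim R S m s M₁)
    (h₃ : Lim R S m s M₃) : Lim R S m s M₂ := by
  obtain ⟨a, b, ha, hb, hab⟩ := h₁
  obtain ⟨a', b', ha', hb', hab'⟩ := h₃
  have hf' : Function.Injective (f.baseChange S) :=
    Module.Flat.lTensor_preserves_injective_linearMap (M := S) f hf
  have hg' : Function.Surjective (g.baseChange S) := LinearMap.lTensor_surjective S hg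
  have hfg' : Function.Exact (f.baseChange S) (g.baseChange S) := lTensor_exact S hfg hg
  refine ⟨a + a', b + b', ?_, ?_, by omega⟩
  · push_cast
    exact gs_exact f g hf hg hfg ha ha'
  · push_cast
    exact gs_exact (f.baseChange S) (g.baseChange S) hf' hg' hfg' hb hb'

theorem Lim.prime {m f : ℕ}
    (hf : ringKrullDim (S ⧸ (maximalIdeal R).map (algebraMap R S)) = f) (P : Ideal R)
    (hP : P ≤ maximalIdeal R) (hm : ringKrullDim (R ⧸ P) ≤ m) {M : Type w} [AddCommGroup M]
    [Module R M] (e : M ≃ₗ[R] (R ⧸ P)) : Lim R S m (m + f) M := by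
  have l1 := tc_loc_quot P hP
  have l2 := tc_loc_quot (P.map (algebraMap R S)) (map_le_max P hP)
  have l3 := loc_hom_quot (S := S) P hP
  have l4 : Module.Flat (R ⧸ P) (S ⧸ P.map (algebraMap R S)) := flat_quot P
  let e' : S ⊗[R] M ≃ₗ[S] (S ⧸ P.map (algebraMap R S)) :=
    (e.baseChange R S M (R ⧸ P)).trans
      (Algebra.TensorProduct.quotIdealMapEquivTensorQuot S P).toLinearEquiv.symm
  have hd := dim_quot (S := S) P hP
  obtain ⟨d, s, eR, eS, h1, h2, h3, h4, h5⟩ :=
    Vale.Agent.Results.P202.Lech.result (R := R ⧸ P) (S := S ⧸ P.map (algebraMap R S))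
  have hs : s = d + f := by
    rw [h1, h2, hf] at hd
    exact_mod_cast hd
  have hdm : d ≤ m := by
    rw [h1] at hm
    exact_mod_cast hm
  unfold Lim
  rw [gs_quot P hP e, gs_quot _ (map_le_max P hP) e']
  rcases hdm.lt_or_eq with hlt | rfl
  · refine ⟨0, 0, ?_, ?_, le_rfl⟩
    · simpa using hs_tendsto_zero h1 hlt
    · have := hs_tendsto_zero (A := S ⧸ P.map (algebraMap R S)) (d := m + f) h2 (by omega)
      simpa using this
  · subst hs
    exact ⟨eR, eS, h3, h4, h5⟩

theorem lim_all {m f : ℕ}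
    (hf : ringKrullDim (S ⧸ (maximalIdeal R).map (algebraMap R S)) = f)
    (M : Type w) [AddCommGroup M] [Module R M] [Module.Finite R M]
    (hm : Module.supportDim R M ≤ m) : Lim R S m (m + f) M := by
  revert hm
  refine IsNoetherianRing.induction_on_isQuotientEquivQuotientPrime R
    (M := M) inferInstance
    (motive := fun M _ _ _ => Module.supportDim R M ≤ m → Lim R S m (m + f) M) ?_ ?_ ?_
  · intro M _ _ _ hM _
    refine ⟨0, 0, ?_, ?_, le_rfl⟩
    · rw [gs_subsingleton]
      simp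
    · have : Subsingleton (S ⊗[R] M) := inferInstance
      rw [gs_subsingleton]
      simp
  · intro M _ _ _ P e hm
    have hP : P.1 ≤ maximalIdeal R := IsLocalRing.le_maximalIdeal P.2.ne_top
    refine Lim.prime hf P.1 hP ?_ e
    rw [← Module.supportDim_quotient_eq_ringKrullDim, ← Module.supportDim_eq_of_equiv e]
    exact hm
  · intro M₁ _ _ _ M₂ _ _ _ M₃ _ _ _ f g hf hg hfg h₁ h₃ hm
    exact Lim.exact f g hf hg hfg (h₁ ((Module.supportDim_le_of_injective f hf).trans hm))
      (h₃ ((Module.supportDim_le_of_surjective g hg).trans hm))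

/-- **Lech's inequality.** -/
theorem lech_ring : ∃ d s a b : ℕ, HasRingMult R d a ∧ HasRingMult S s b ∧ a ≤ b := by
  obtain ⟨d, s, a, b, h1, h2, h3, h4, h5⟩ :=
    Vale.Agent.Results.P202.Lech.result (R := R) (S := S)
  exact ⟨d, s, a, b, ⟨h1, h3⟩, ⟨h2, h4⟩, h5⟩

/-- **Lech's inequality for modules.** -/
theorem lech_module (M : Type w) [AddCommGroup M] [Module R M] [Module.Finite R M]
    [Nontrivial M] : ∃ m f a b : ℕ,
      ringKrullDim (S ⧸ (maximalIdeal R).map (algebraMap R S)) = f ∧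
      HasMult R M m a ∧ HasMult S (S ⊗[R] M) (m + f) b ∧ a ≤ b := by
  obtain ⟨f, hf⟩ : ∃ f : ℕ, ringKrullDim (S ⧸ (maximalIdeal R).map (algebraMap R S)) = f := by
    have l2 := tc_loc_quot ((maximalIdeal R).map (algebraMap R S)) (map_le_max _ le_rfl)
    exact exists_dim _
  obtain ⟨m, hm⟩ : ∃ m : ℕ, Module.supportDim R M = m := by
    have h1 : Module.annihilator R M ≤ maximalIdeal R := by
      refine IsLocalRing.le_maximalIdeal fun h => ?_
      have h2 : (1 : R) ∈ Module.annihilator R M := by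
        rw [h]
        exact Submodule.mem_top
      obtain ⟨x, hx⟩ := exists_ne (0 : M)
      exact hx (by simpa using Module.mem_annihilator.1 h2 x)
    have l1 := tc_loc_quot _ h1
    rw [Module.supportDim_eq_ringKrullDim_quotient_annihilator]
    exact exists_dim _
  obtain ⟨a, b, ha, hb, hab⟩ := lim_all hf M hm.le
  refine ⟨m, f, a, b, hf, ⟨hm, ha⟩, ⟨?_, hb⟩, hab⟩
  rw [supportDim_baseChange, hm, hf]
  push_cast
  rfl

end lech

end Vale.Agent.P202.H834
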